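import Mathlib
import Vale.Agent.Lib.P130.JZero

/-!
# P130B: isometries `L²(𝕋) → H` from cyclic vectors
-/

open MeasureTheory Filter Topology
open scoped ENNReal ComplexConjugate

namespace P130B

open P130

section abstract

variable {E F : Type*} [NormedAddCommGroup E] [InnerProductSpace ℂ E]
  [NormedAddCommGroup F] [InnerProductSpace ℂ F]

private theorem isom_norm {ι : Type*} (x : ι → E) (y : ι → F)
    (hg : ∀ i j, inner ℂ (x i) (x j) = inner ℂ (y i) (y j)) (c : ι →₀ ℂ) :
    ‖Finsupp.linearCombination ℂ y c‖ = ‖Finsupp.linearCombination ℂ x c‖ := by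
  have h : inner ℂ (Finsupp.linearCombination ℂ y c) (Finsupp.linearCombination ℂ y c) =
      inner ℂ (Finsupp.linearCombination ℂ x c) (Finsupp.linearCombination ℂ x c) := by
    rw [Finsupp.linearCombination_apply, Finsupp.linearCombination_apply]
    simp only [Finsupp.sum, sum_inner, inner_sum, inner_smul_left, inner_smul_right, hg]
  rw [inner_self_eq_norm_sq_to_K, inner_self_eq_norm_sq_to_K] at h
  have h2 : ‖Finsupp.linearCombination ℂ y c‖ ^ 2 = ‖Finsupp.linearCombination ℂ x c‖ ^ 2 := by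
    exact_mod_cast h
  exact (sq_eq_sq₀ (norm_nonneg _) (norm_nonneg _)).1 h2

/-- two families with the same Gram matrix, the first one total: there is an isometry -/
theorem exists_isom [CompleteSpace F] {ι : Type*} (x : ι → E) (y : ι → F)
    (hg : ∀ i j, inner ℂ (x i) (x j) = inner ℂ (y i) (y j))
    (ht : (Submodule.span ℂ (Set.range x)).topologicalClosure = ⊤) :
    ∃ W : E →ₗᵢ[ℂ] F, ∀ i, W (x i) = y i := by
  have hd : DenseRange (Finsupp.linearCombination ℂ x) := by
    have h1 : Set.range (Finsupp.linearCombination ℂ x) =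
        ((Submodule.span ℂ (Set.range x) : Submodule ℂ E) : Set E) := by
      rw [← Finsupp.range_linearCombination]
      rfl
    unfold DenseRange
    rw [h1]
    exact Submodule.dense_iff_topologicalClosure_eq_top.2 ht
  have hn : ∀ c, ‖Finsupp.linearCombination ℂ y c‖ ≤ 1 * ‖Finsupp.linearCombination ℂ x c‖ := by
    intro c
    rw [one_mul, isom_norm x y hg c]
  obtain ⟨W, hW⟩ : ∃ W : E →L[ℂ] F, W = (Finsupp.linearCombination ℂ y).extendOfNorm
    (Finsupp.linearCombination ℂ x) := ⟨_, rfl⟩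
  have hWe : ∀ c, W (Finsupp.linearCombination ℂ x c) = Finsupp.linearCombination ℂ y c := by
    intro c
    rw [hW]
    exact LinearMap.extendOfNorm_eq hd ⟨1, hn⟩ c
  have hiso : ∀ z, ‖W z‖ = ‖z‖ := by
    intro z
    refine hd.induction_on (p := fun z => ‖W z‖ = ‖z‖) z
      (isClosed_eq (continuous_norm.comp W.continuous) continuous_norm) fun c => ?_
    rw [hWe, isom_norm x y hg c]
  refine ⟨⟨W.toLinearMap, hiso⟩, fun i => ?_⟩
  have h := hWe (Finsupp.single i 1)
  rw [Finsupp.linearCombination_single, Finsupp.linearCombination_single, one_smul, one_smul] at h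
  exact h

end abstract

/-- translates of an a.e. nonzero function are total -/
theorem total_mul (g : LT) (hg : ∀ᵐ t ∂mT, g t ≠ 0) :
    (Submodule.span ℂ (Set.range fun m : ℤ => mulF m g)).topologicalClosure = ⊤ := by
  rw [Submodule.topologicalClosure_eq_top_iff, Submodule.eq_bot_iff]
  intro q hq
  have h1 : ∀ l : ℤ, inner ℂ q (mulF l g) = 0 := fun l =>
    (Submodule.mem_orthogonal' _ q).1 hq _ (Submodule.subset_span ⟨l, rfl⟩)
  have h2 := mul_ae_zero q g h1
  rw [Lp.eq_zero_iff_ae_eq_zero]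
  filter_upwards [h2, hg] with t e1 e2
  by_contra hc
  exact e2 (e1 hc)

variable {H : Type*} [NormedAddCommGroup H] [InnerProductSpace ℂ H]

theorem unit_mul_apply (U V : H ≃ₗᵢ[ℂ] H) (x : H) : (U * V) x = U (V x) := rfl

theorem unit_zpow_add (U : H ≃ₗᵢ[ℂ] H) (i j : ℤ) (x : H) :
    (U ^ (i + j)) x = (U ^ i) ((U ^ j) x) := by
  rw [zpow_add, unit_mul_apply]

/-- `U^m` for a unitary -/
theorem zpow_inner (U : H ≃ₗᵢ[ℂ] H) (x y : H) (i j : ℤ) :
    inner ℂ ((U ^ i) x) ((U ^ j) y) = inner ℂ x ((U ^ (j - i)) y) := by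
  have h : (U ^ j) y = (U ^ i) ((U ^ (j - i)) y) := by
    rw [← unit_zpow_add, add_sub_cancel]
  rw [h, LinearIsometryEquiv.inner_map_map]

theorem mulF_inner (x y : LT) (i j : ℤ) :
    inner ℂ (mulF i x) (mulF j y) = inner ℂ x (mulF (j - i) y) := by
  have h : mulF j y = mulF i (mulF (j - i) y) := by
    rw [← mulF_add, add_sub_cancel]
  rw [h, LinearIsometry.inner_map_map]

/-- intertwining with all powers -/
theorem inter_zpow (U : H ≃ₗᵢ[ℂ] H) (W : LT →ₗᵢ[ℂ] H) (hW : ∀ x, W (mulF 1 x) = U (W x))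
    (m : ℤ) (x : LT) : W (mulF m x) = (U ^ m) (W x) := by
  induction m using Int.induction_on generalizing x with
  | zero => rw [mulF_zero, zpow_zero]; rfl
  | succ n ih =>
    rw [add_comm, mulF_add, hW, ih, unit_zpow_add, zpow_one]
  | pred n ih =>
    have h1 : mulF (-(n : ℤ)) x = mulF 1 (mulF (-(n : ℤ) - 1) x) := by
      rw [← mulF_add, add_sub_cancel]
    have h2 := ih x
    rw [h1, hW] at h2
    have h3 : (U ^ (-(n : ℤ))) (W x) = U ((U ^ (-(n : ℤ) - 1)) (W x)) := by
      have h4 := unit_zpow_add U 1 (-(n : ℤ) - 1) (W x)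
      rwa [zpow_one, add_sub_cancel] at h4
    rw [h3] at h2
    exact U.injective h2

/-- two intertwining isometries which agree at one a.e. nonzero vector are equal -/
theorem inter_unique (U : H ≃ₗᵢ[ℂ] H) (W W' : LT →ₗᵢ[ℂ] H) (hW : ∀ x, W (mulF 1 x) = U (W x))
    (hW' : ∀ x, W' (mulF 1 x) = U (W' x)) (g : LT) (hg : ∀ᵐ t ∂mT, g t ≠ 0)
    (h : W g = W' g) : W = W' := by
  have h1 : ∀ x : LT, W x = W' x := by
    have hd : Dense ((Submodule.span ℂ (Set.range fun m : ℤ => mulF m g) : Submodule ℂ LT) :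
        Set LT) := Submodule.dense_iff_topologicalClosure_eq_top.2 (total_mul g hg)
    have hc : Set.EqOn (W : LT → H) W'
        ((Submodule.span ℂ (Set.range fun m : ℤ => mulF m g) : Submodule ℂ LT) : Set LT) := by
      intro x hx
      have : Set.EqOn (W.toLinearMap : LT → H) W'.toLinearMap
          (Set.range fun m : ℤ => mulF m g) := by
        rintro _ ⟨m, rfl⟩
        change W (mulF m g) = W' (mulF m g)
        rw [inter_zpow U W hW, inter_zpow U W' hW', h]
      exact LinearMap.eqOn_span this hx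
    exact congrFun (Continuous.ext_on hd W.continuous W'.continuous hc)
  exact LinearIsometry.ext h1

/-- the isometry of a cyclic vector -/
theorem cyc_isom [CompleteSpace H] (U : H ≃ₗᵢ[ℂ] H) (v : H) (g : LT) (hg : ∀ᵐ t ∂mT, g t ≠ 0)
    (h : ∀ m : ℤ, inner ℂ v ((U ^ m) v) = inner ℂ g (mulF m g)) :
    ∃ W : LT →ₗᵢ[ℂ] H, (∀ x, W (mulF 1 x) = U (W x)) ∧ W g = v := by
  obtain ⟨W, hW⟩ := exists_isom (fun m : ℤ => mulF m g) (fun m : ℤ => (U ^ m) v)
    (fun i j => by rw [mulF_inner, zpow_inner, h]) (total_mul g hg)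
  have h0 : W g = v := by
    have := hW 0
    rwa [mulF_zero, zpow_zero] at this
  refine ⟨W, ?_, h0⟩
  have hd : Dense ((Submodule.span ℂ (Set.range fun m : ℤ => mulF m g) : Submodule ℂ LT) :
      Set LT) := Submodule.dense_iff_topologicalClosure_eq_top.2 (total_mul g hg)
  have hc : Set.EqOn (fun x => W (mulF 1 x)) (fun x => U (W x))
      ((Submodule.span ℂ (Set.range fun m : ℤ => mulF m g) : Submodule ℂ LT) : Set LT) := by
    intro x hx
    have : Set.EqOn (W.toLinearMap.comp (mulF 1).toLinearMap : LT → H)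
        (U.toLinearEquiv.toLinearMap.comp W.toLinearMap)
        (Set.range fun m : ℤ => mulF m g) := by
      rintro _ ⟨m, rfl⟩
      change W (mulF 1 (mulF m g)) = U (W (mulF m g))
      rw [← mulF_add, hW, hW, unit_zpow_add, zpow_one]
    exact LinearMap.eqOn_span this hx
  exact congrFun (Continuous.ext_on hd (W.continuous.comp (mulF 1).continuous)
    (U.continuous.comp W.continuous) hc)

/-- **Gluing.** A sequence of vectors `v n` with spectral densities `|g n|²`, related by trigonometric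
polynomials: one isometry onto the closed span of all orbits. -/
theorem glue [CompleteSpace H] (U : H ≃ₗᵢ[ℂ] H) (v : ℕ → H) (g : ℕ → LT)
    (hg : ∀ n, ∀ᵐ t ∂mT, g n t ≠ 0)
    (h : ∀ n (m : ℤ), inner ℂ (v n) ((U ^ m) (v n)) = inner ℂ (g n) (mulF m (g n)))
    (N : ℕ → ℕ) (E : ℕ → ℕ → ℤ) (c : ℕ → ℂ)
    (hgn : ∀ n, g n = c n • ∑ j ∈ Finset.range (N n), mulF (E n j) (g (n + 1)))
    (hvn : ∀ n, v n = c n • ∑ j ∈ Finset.range (N n), (U ^ (E n j)) (v (n + 1))) :
    ∃ W : LT →ₗᵢ[ℂ] H, (∀ x, W (mulF 1 x) = U (W x)) ∧ (∀ n, W (g n) = v n) ∧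
      ∀ f : H, (∃ x, W x = f) ↔
        f ∈ (Submodule.span ℂ {f | ∃ (n : ℕ) (m : ℤ), f = (U ^ m) (v n)}).topologicalClosure := by
  choose W hW1 hW2 using fun n => cyc_isom U (v n) (g n) (hg n) (h n)
  have hs : ∀ n, W (n + 1) = W n := by
    intro n
    refine inter_unique U _ _ (hW1 _) (hW1 _) (g n) (hg n) ?_
    rw [hW2 n, hgn n, hvn n, map_smul, map_sum]
    congr 1
    refine Finset.sum_congr rfl fun j _ => ?_
    rw [inter_zpow U _ (hW1 _), hW2]
  have hs0 : ∀ n, W n = W 0 := by
    intro n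
    induction n with
    | zero => rfl
    | succ n ih => rw [hs, ih]
  have hv : ∀ n, W 0 (g n) = v n := by
    intro n
    rw [← hs0 n]
    exact hW2 n
  refine ⟨W 0, hW1 0, hv, fun f => ⟨?_, ?_⟩⟩
  · rintro ⟨x, rfl⟩
    have hx : x ∈ (Submodule.span ℂ (Set.range fun m : ℤ => mulF m (g 0))).topologicalClosure := by
      rw [total_mul (g 0) (hg 0)]
      exact Submodule.mem_top
    have h1 : Submodule.span ℂ (Set.range fun m : ℤ => mulF m (g 0)) ≤
        (Submodule.span ℂ {f | ∃ (n : ℕ) (m : ℤ), f = (U ^ m) (v n)}).topologicalClosure.comap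
          (W 0).toLinearMap := by
      rw [Submodule.span_le]
      rintro _ ⟨m, rfl⟩
      refine Submodule.le_topologicalClosure _ (Submodule.subset_span ⟨0, m, ?_⟩)
      change W 0 (mulF m (g 0)) = _
      rw [inter_zpow U _ (hW1 0), hv]
    have h2 := Submodule.topologicalClosure_minimal _ h1
      ((Submodule.isClosed_topologicalClosure _).preimage (W 0).continuous)
    exact h2 hx
  · intro hf
    have hcl : IsClosed ((LinearMap.range (W 0).toLinearMap : Submodule ℂ H) : Set H) := by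
      have h1 := (W 0).isometry.isClosedEmbedding.isClosed_range
      exact h1
    have h1 : (Submodule.span ℂ {f | ∃ (n : ℕ) (m : ℤ), f = (U ^ m) (v n)}).topologicalClosure ≤
        LinearMap.range (W 0).toLinearMap := by
      refine Submodule.topologicalClosure_minimal _ ?_ hcl
      rw [Submodule.span_le]
      rintro _ ⟨n, m, rfl⟩
      refine ⟨mulF m (g n), ?_⟩
      change W 0 (mulF m (g n)) = _
      rw [inter_zpow U _ (hW1 0), hv]
    obtain ⟨x, hx⟩ := h1 hf
    exact ⟨x, hx⟩

end P130B
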